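import Crest.Agent.Lib.ODEFlow
import Crest.Agent.R202.LinODE
import Crest.Agent.X212.An.Cut
import Crest.Agent.X212.Mon62.UC
import Crest.Agent.X212.Eqv71.Gau
import Crest.Agent.X212.Wz78.Sd
import Crest.Agent.X212.Prm93.H

-- ▼ part X212/Csm97/Vol
section

/-!
# Row 212, CUT-SM (helper97), part 1: transport as a smooth map of the coefficient in `C⁰`

`hol a` : the value at time one of the solution of `P' = -a P`, `P 0 = 1`, for `a : C([0,1], R)`.
`c2 f` : a function of `(θ, s)` as an element of `C([0,1] × Θ, N)`; `Hol`.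
`S0`, `S1` : families that are smooth maps to `C⁰`, `C¹` along the paths.
-/

set_option autoImplicit false
set_option linter.unusedSectionVars false
noncomputable section
open scoped ContDiff Topology
open Set Function Filter

namespace Crest.Agent.X212.Csm97
open Crest.Agent.Lib.ODEFlow hiding I
open An (cm CL)
open Mon62 (UC Rg Bv Bd)

abbrev II : Type := Crest.Agent.Lib.ODEFlow.I
/-- continuous maps, with the instances of normed spaces -/
abbrev CN (K N : Type) [TopologicalSpace K] [NormedAddCommGroup N] : Type := C(K, N)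

/-- evaluation -/
def evC {K N : Type} [TopologicalSpace K] [CompactSpace K] [NormedAddCommGroup N]
    [NormedSpace ℝ N] (z : K) : CL C(K, N) N := ContinuousMap.evalCLM ℝ z

section vol
variable {R R' : Type} [NormedRing R] [NormedAlgebra ℝ R] [CompleteSpace R]
  [NormedRing R'] [NormedAlgebra ℝ R'] [CompleteSpace R']

/-- `a ↦ (p ↦ ∫ a p)` -/
def vm : CL C(II, R) (CL C(II, R) C(II, R)) :=
  ContinuousLinearMap.compL ℝ _ _ _ vol ∘L ContinuousLinearMap.mul ℝ C(II, R)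

/-- `p ↦ p + ∫ a p` -/
def Lv (a : C(II, R)) : CL C(II, R) C(II, R) := ContinuousLinearMap.id ℝ _ + vm a

theorem Lv_apply (a p : C(II, R)) (t : II) :
    Lv a p t = p t + ∫ s in (0 : ℝ)..t, a (pr s) * p (pr s) := rfl

theorem Lv_eq (a : C(II, R)) : Lv a =
    ContinuousLinearMap.id ℝ _ - vol ∘L (-ContinuousLinearMap.mul ℝ C(II, R) a) := by
  rw [ContinuousLinearMap.comp_neg, sub_neg_eq_add]; rfl

theorem mul_bd {a : C(II, R)} {K : ℝ} (hK : ‖a‖ ≤ K) (h : C(II, R)) (t : II) :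
    ‖(-ContinuousLinearMap.mul ℝ C(II, R) a) h t‖ ≤ K * ‖h t‖ := by
  change ‖-(a t * h t)‖ ≤ _
  rw [norm_neg]
  exact (norm_mul_le _ _).trans
    (mul_le_mul_of_nonneg_right ((a.norm_coe_le_norm t).trans hK) (norm_nonneg _))

theorem Lv_inv (a : C(II, R)) : (Lv a).IsInvertible := by
  rw [Lv_eq]; exact isInvertible_id_sub_vol_comp _ (norm_nonneg a) (mul_bd le_rfl)

theorem norm_Lv_inv {K : ℝ} (hK : 0 ≤ K) {a : C(II, R)} (ha : ‖a‖ ≤ K) :
    ‖(Lv a).inverse‖ ≤ Real.exp K := by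
  refine ContinuousLinearMap.opNorm_le_bound _ (Real.exp_pos K).le fun f => ?_
  set T := vol ∘L (-ContinuousLinearMap.mul ℝ C(II, R) a) with hT
  set u := (Lv a).inverse f
  have hb : ∀ (n : ℕ) (h : C(II, R)), ‖(T ^ n) h‖ ≤ K ^ n / n.factorial * ‖h‖ := fun n h => by
    rw [ContinuousMap.norm_le _ (by positivity)]
    intro t
    refine (norm_vol_comp_pow_apply _ hK (mul_bd ha) n h t).trans ?_
    gcongr
    · exact mul_nonneg hK t.2.1
    · exact mul_le_of_le_one_right hK t.2.2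
  have h1 : u = f + T u := by
    have : Lv a u = f := (Lv_inv a).self_apply_inverse f
    rw [Lv_eq] at this
    exact eq_add_of_sub_eq this
  have h2 : ∀ n : ℕ, u = ∑ i ∈ Finset.range n, (T ^ i) f + (T ^ n) u := fun n => by
    induction n with
    | zero => simp
    | succ n ih =>
      rw [Finset.sum_range_succ, add_assoc, pow_succ, mul_apply_eq_comp, ← map_add,
        ← h1]
      exact ih
  have h3 : ∀ n : ℕ, ‖u‖ ≤ Real.exp K * ‖f‖ + K ^ n / n.factorial * ‖u‖ := fun n => by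
    conv_lhs => rw [h2 n]
    refine (norm_add_le _ _).trans (add_le_add ((norm_sum_le _ _).trans ?_) (hb n u))
    refine (Finset.sum_le_sum fun i _ => hb i f).trans ?_
    rw [← Finset.sum_mul]
    exact mul_le_mul_of_nonneg_right (Real.sum_le_exp_of_nonneg hK n) (norm_nonneg f)
  have h4 : Tendsto (fun n : ℕ => Real.exp K * ‖f‖ + K ^ n / n.factorial * ‖u‖) atTop
      (𝓝 (Real.exp K * ‖f‖ + 0 * ‖u‖)) :=
    ((FloorSemiring.tendsto_pow_div_factorial_atTop K).mul_const _).const_add _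
  simpa using ge_of_tendsto' h4 h3

/-- the fundamental solution -/
def fund (a : C(II, R)) : C(II, R) := (Lv a).inverse 1

theorem Lv_fund (a : C(II, R)) : Lv a (fund a) = 1 := (Lv_inv a).self_apply_inverse 1

theorem fund_eq {a p : C(II, R)} (h : Lv a p = 1) : fund a = p := by
  rw [fund, ← h]; exact (Lv_inv a).inverse_apply_self p

theorem contDiff_fund : ContDiff ℝ ∞ (fund : C(II, R) → C(II, R)) := by
  refine ContDiff.clm_apply (contDiff_iff_contDiffAt.2 fun a => ?_) contDiff_const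
  obtain ⟨e, he⟩ := Lv_inv a
  have := contDiffAt_map_inverse (𝕜 := ℝ) (n := ∞) e
  rw [he] at this
  exact this.comp a (contDiff_const.add vm.contDiff).contDiffAt

theorem fund_ode {A P : ℝ → R} (hA : Continuous A) (h0 : P 0 = 1)
    (hP : ∀ s, HasDerivAt P (-(A s * P s)) s) {a : C(II, R)} (ha : ∀ t : II, a t = A t) (t : II) :
    fund a t = P t := by
  have hc : Continuous P := continuous_iff_continuousAt.2 fun s => (hP s).continuousAt
  rw [fund_eq (p := ⟨fun t => P t, hc.comp continuous_subtype_val⟩) ?_]; · rfl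
  ext t
  have h1 := intervalIntegral.integral_eq_sub_of_hasDerivAt (a := 0) (b := t)
    (fun s _ => hP s) ((hA.mul hc).neg.intervalIntegrable _ _)
  have h2 : ∫ s in (0 : ℝ)..t, a (pr s) * P (pr s) = ∫ s in (0 : ℝ)..t, A s * P s :=
    intervalIntegral.integral_congr fun s hs => by
      rw [uIcc_of_le t.2.1] at hs
      simp only [ha, pr_of_mem ⟨hs.1, hs.2.trans t.2.2⟩]
  rw [intervalIntegral.integral_neg, h0] at h1
  change P t + ∫ s in (0 : ℝ)..t, a (pr s) * P (pr s) = 1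
  rw [h2, ← neg_neg (∫ s in (0 : ℝ)..t, A s * P s), h1]
  simp

theorem fund_map (φ : R →L[ℝ] R') (h1 : φ 1 = 1) (hm : ∀ x y, φ (x * y) = φ x * φ y)
    {a : C(II, R)} {a' : C(II, R')} (ha : ∀ t, a' t = φ (a t)) (t : II) :
    fund a' t = φ (fund a t) := by
  rw [fund_eq (p := ⟨fun t => φ (fund a t), φ.continuous.comp (fund a).continuous⟩) ?_]; · rfl
  ext t
  have h2 := congrArg (fun p : C(II, R) => φ (p t)) (Lv_fund a)
  simp only [Lv_apply, map_add, ContinuousMap.one_apply, h1] at h2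
  rw [← φ.intervalIntegral_comp_comm (f := fun s => a (pr s) * fund a (pr s))
    (((continuous_comp_pr a).mul (continuous_comp_pr (fund a))).intervalIntegrable _ _)] at h2
  simpa only [Lv_apply, ContinuousMap.coe_mk, ha, ← hm, ContinuousMap.one_apply] using h2

theorem uc_fund {J : Type} {X : J → Type} [∀ i, NormedAddCommGroup (X i)]
    [∀ i, NormedSpace ℝ (X i)] {Q : Rg X} {a : ∀ i, X i → C(II, R)} (h : UC Q a) :
    UC Q fun i x => fund (a i x) := by
  obtain ⟨K, hK, hb⟩ := h.bd0.nn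
  exact (UC.inverse (L := fun i x => Lv (a i x))
    ((UC.const (Bv.const _)).add (h.clm (Bv.const vm))) (fun _ _ _ => Lv_inv _)
    ⟨_, fun i x hx => norm_Lv_inv hK (hb i x hx)⟩).app (UC.const (Bv.const 1))

end vol

variable {Θ : Type} [TopologicalSpace Θ] [CompactSpace Θ]
  {N N' N'' : Type} [NormedAddCommGroup N] [NormedSpace ℝ N] [NormedAddCommGroup N']
  [NormedSpace ℝ N'] [NormedAddCommGroup N''] [NormedSpace ℝ N'']

omit [NormedSpace ℝ N] [CompactSpace Θ] in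
theorem cm_apply {g : Θ → N} (h : Continuous g) (θ : Θ) : cm g θ = g θ := by
  rw [cm, dif_pos h]; rfl

omit [NormedSpace ℝ N] [CompactSpace Θ] in
theorem cm_eq {g : Θ → N} {G : C(Θ, N)} (h : ∀ θ, G θ = g θ) : cm g = G := by
  obtain rfl : g = G := (funext h).symm
  ext θ; exact cm_apply G.continuous θ

/-- currying -/
def curL : CL C(II × Θ, N) (CN II C(Θ, N)) :=
  LinearMap.mkContinuous
    { toFun := fun g => ⟨g.curry, g.curry.continuous⟩
      map_add' := fun _ _ => rfl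
      map_smul' := fun _ _ => rfl } 1
    fun g => by
      rw [one_mul, ContinuousMap.norm_le _ (norm_nonneg g)]
      intro t
      rw [ContinuousMap.norm_le _ (norm_nonneg g)]
      exact fun θ => g.norm_coe_le_norm (t, θ)

/-- a function of `(θ, s)` on `[0,1] × Θ` -/
def c2 (f : Θ → ℝ → N) : C(II × Θ, N) := cm fun z => f z.2 z.1

omit [NormedSpace ℝ N] in
theorem c2_apply {f : Θ → ℝ → N} (h : Continuous (uncurry f)) (z : II × Θ) :
    c2 f z = f z.2 z.1 :=
  cm_apply (h.comp (continuous_snd.prodMk (continuous_subtype_val.comp continuous_fst))) z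

/-- pointwise bilinear maps -/
def bilC (β : N →L[ℝ] N' →L[ℝ] N'') : CL C(Θ, N) (CL C(Θ, N') C(Θ, N'')) :=
  applyB ∘L β.compLeftContinuous ℝ Θ

@[simp] theorem bilC_apply (β : N →L[ℝ] N' →L[ℝ] N'') (f : C(Θ, N)) (g : C(Θ, N')) (θ : Θ) :
    bilC β f g θ = β (f θ) (g θ) := rfl

section Hol
variable {R : Type} [NormedRing R] [NormedAlgebra ℝ R] [CompleteSpace R]

/-- the transport to time `t` -/
def Hol (t : II) (a : C(II × Θ, R)) : C(Θ, R) := fund (curL a) t

theorem contDiff_Hol (t : II) : ContDiff ℝ ∞ (Hol t : C(II × Θ, R) → C(Θ, R)) :=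
  (evC t).contDiff.comp (contDiff_fund.comp curL.contDiff)

theorem uc_Hol (t : II) {J : Type} {X : J → Type} [∀ i, NormedAddCommGroup (X i)]
    [∀ i, NormedSpace ℝ (X i)] {Q : Rg X} {a : ∀ i, X i → C(II × Θ, R)} (h : UC Q a) :
    UC Q fun i x => Hol t (a i x) := by
  have h1 : UC Q fun i x => curL (a i x) := h.clm (L := fun _ => curL) (Bv.const _)
  have h2 := uc_fund (R := C(Θ, R)) h1
  exact h2.clm (L := fun _ => evC t) (Bv.const _)

theorem Hol_ode {A : Θ → ℝ → R} (hA : Continuous (uncurry A)) {θ : Θ} {P : ℝ → R} (h0 : P 0 = 1)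
    (hP : ∀ s, HasDerivAt P (-(A θ s * P s)) s) (t : II) : Hol t (c2 A) θ = P t := by
  have hθ : Continuous (A θ) := hA.uncurry_left θ
  rw [← fund_ode hθ h0 hP (a := ⟨fun t => A θ t, hθ.comp continuous_subtype_val⟩) (fun _ => rfl)]
  exact (fund_map (R := C(Θ, R)) (evC θ) rfl (fun _ _ => rfl) (a := curL (c2 A))
    (fun s => (c2_apply hA (s, θ)).symm) t).symm

end Hol

theorem trp_spec {κ : Type} [Fintype κ] {A : ℝ → An.En κ} (hA : Continuous A) :
    An.trp A 0 = 1 ∧ ∀ s, HasDerivAt (An.trp A) (-(A s * An.trp A s)) s := by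
  have h : ∃ P : ℝ → An.En κ, P 0 = 1 ∧ ∀ s, HasDerivAt P (-(A s * P s)) s := by
    obtain ⟨S, -, h1, h2⟩ := R202.LinODE.exists_flow (X := Unit)
      (A := fun _ s => -ContinuousLinearMap.mul ℝ (An.En κ) (A s))
      (((ContinuousLinearMap.mul ℝ (An.En κ)).continuous.comp (hA.comp continuous_snd)).neg) 0
      (x0 := fun _ => 1) continuous_const
    exact ⟨S (), h1 (), h2 ()⟩
  rw [An.trp, dif_pos h]; exact h.choose_spec

theorem Hol_trp {κ : Type} [Fintype κ] {A : Θ → ℝ → An.En κ} (hA : Continuous (uncurry A))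
    (θ : Θ) (t : II) : Hol t (c2 A) θ = An.trp (A θ) t :=
  Hol_ode hA (trp_spec (hA.uncurry_left θ)).1 (trp_spec (hA.uncurry_left θ)).2 t

/-! ### families -/

variable {X : Type} [NormedAddCommGroup X] [NormedSpace ℝ X] {O : Set X}

/-- smooth maps to `C⁰` -/
structure S0 (O : Set X) (f : X → Θ → ℝ → N) : Prop where
  ct : ∀ x ∈ O, Continuous (uncurry (f x))
  sm : ContDiffOn ℝ ∞ (fun x => c2 (f x)) O

namespace S0
variable {f f' : X → Θ → ℝ → N} {g : X → Θ → ℝ → N'}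

theorem of_map (hc : ∀ x ∈ O, Continuous (uncurry (f x))) {G : X → C(II × Θ, N)}
    (hG : ContDiffOn ℝ ∞ G O) (e : ∀ x ∈ O, ∀ z, G x z = f x z.2 z.1) : S0 O f :=
  ⟨hc, hG.congr fun x hx => cm_eq (e x hx)⟩

theorem congr (h : S0 O f) (e : ∀ x ∈ O, ∀ θ s, f' x θ s = f x θ s) : S0 O f' := by
  have e' : ∀ x ∈ O, f' x = f x := fun x hx => funext fun θ => funext (e x hx θ)
  exact ⟨fun x hx => e' x hx ▸ h.ct x hx, h.sm.congr fun x hx => by rw [e' x hx]⟩

theorem fixed {u : Θ → ℝ → N} (hu : Continuous (uncurry u)) : S0 O fun _ => u :=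
  ⟨fun _ _ => hu, contDiffOn_const⟩

theorem par {c : X → N} (hc : ContDiffOn ℝ ∞ c O) : S0 O fun x (_ : Θ) _ => c x :=
  of_map (fun _ _ => continuous_const)
    ((ContinuousLinearMap.const ℝ (II × Θ)).contDiff.comp_contDiffOn hc) fun _ _ _ => rfl

theorem reparam {X' : Type} [NormedAddCommGroup X'] [NormedSpace ℝ X'] {φ : X' → X} {O' : Set X'}
    (h : S0 O f) (hφ : ContDiffOn ℝ ∞ φ O') (hm : MapsTo φ O' O) : S0 O' fun x => f (φ x) :=
  ⟨fun _ hx => h.ct _ (hm hx), h.sm.comp hφ hm⟩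

theorem add (h : S0 O f) (h' : S0 O f') : S0 O fun x θ s => f x θ s + f' x θ s :=
  of_map (fun x hx => (h.ct x hx).add (h'.ct x hx)) (h.sm.add h'.sm) fun x hx z => by
    rw [ContinuousMap.add_apply, c2_apply (h.ct x hx), c2_apply (h'.ct x hx)]

theorem bil (β : N →L[ℝ] N' →L[ℝ] N'') (h : S0 O f) (h' : S0 O g) :
    S0 O fun x θ s => β (f x θ s) (g x θ s) :=
  of_map (fun x hx => (β.continuous.comp (h.ct x hx)).clm_apply (h'.ct x hx))
    (((bilC β).contDiff.comp_contDiffOn h.sm).clm_apply h'.sm) fun x hx z => by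
      rw [comp_apply, bilC_apply, c2_apply (h.ct x hx), c2_apply (h'.ct x hx)]

theorem clm (L : N →L[ℝ] N') (h : S0 O f) : S0 O fun x θ s => L (f x θ s) :=
  of_map (fun x hx => L.continuous.comp (h.ct x hx))
    ((L.compLeftContinuous ℝ (II × Θ)).contDiff.comp_contDiffOn h.sm) fun x hx z =>
      congrArg L (c2_apply (h.ct x hx) z)

theorem cmp {φ : N → N'} {U : Set N} (hU : IsOpen U) (hφ : ContDiffOn ℝ ∞ φ U) (h : S0 O f)
    (hm : ∀ x ∈ O, ∀ θ s, f x θ s ∈ U) : S0 O fun x θ s => φ (f x θ s) := by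
  have h1 : ∀ x ∈ O, c2 (f x) ∈ mapsIn (II × Θ) U := fun x hx z => by
    rw [c2_apply (h.ct x hx)]; exact hm x hx _ _
  exact of_map (fun x hx => hφ.continuousOn.comp_continuous (h.ct x hx) fun z => hm x hx _ _)
    ((contDiffOn_nem (n := ⊤) hU hφ).comp h.sm h1) fun x hx z => by
      rw [comp_apply, nem_apply hφ.continuousOn (h1 x hx), c2_apply (h.ct x hx)]

theorem neg (h : S0 O f) : S0 O fun x θ s => -f x θ s := h.clm (-ContinuousLinearMap.id ℝ N)

theorem sub (h : S0 O f) (h' : S0 O f') : S0 O fun x θ s => f x θ s - f' x θ s :=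
  (h.add h'.neg).congr fun _ _ _ _ => sub_eq_add_neg _ _

theorem smul {c : X → Θ → ℝ → ℝ} (hc : S0 O c) (h : S0 O f) :
    S0 O fun x θ s => c x θ s • f x θ s := bil (ContinuousLinearMap.lsmul ℝ ℝ) hc h

theorem mul {R : Type} [NormedRing R] [NormedAlgebra ℝ R] {u v : X → Θ → ℝ → R} (hu : S0 O u)
    (hv : S0 O v) : S0 O fun x θ s => u x θ s * v x θ s := bil (ContinuousLinearMap.mul ℝ R) hu hv

theorem const (c : N) : S0 O fun _ (_ : Θ) _ => c := fixed continuous_const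

theorem csmul (c : ℝ) (h : S0 O f) : S0 O fun x θ s => c • f x θ s := (const c).smul h

theorem sum {κ : Type*} [Fintype κ] {u : κ → X → Θ → ℝ → N} (h : ∀ i, S0 O (u i)) :
    S0 O fun x θ s => ∑ i, u i x θ s :=
  of_map (fun x hx => continuous_finsetSum _ fun i _ => (h i).ct x hx)
    (ContDiffOn.sum fun i (_ : i ∈ Finset.univ) => (h i).sm) fun x hx z => by
      rw [ContinuousMap.sum_apply]
      exact Finset.sum_congr rfl fun i _ => c2_apply ((h i).ct x hx) z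

/-- evaluation -/
theorem ev (h : S0 O f) (θ : Θ) {s : ℝ} (hs : s ∈ Icc (0 : ℝ) 1) :
    ContDiffOn ℝ ∞ (fun x => f x θ s) O :=
  ((evC ((⟨s, hs⟩ : II), θ)).contDiff.comp_contDiffOn h.sm).congr
    fun x hx => (c2_apply (h.ct x hx) (⟨s, hs⟩, θ)).symm

end S0

/-- smooth maps to `C¹` along the paths -/
structure S1 (O : Set X) (f : X → Θ → ℝ → N) : Prop where
  s0 : S0 O f
  df : ∀ x ∈ O, ∀ θ, Differentiable ℝ (f x θ)
  d : S0 O fun x θ => deriv (f x θ)

namespace S1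
variable {f f' : X → Θ → ℝ → N} {g : X → Θ → ℝ → N'}

theorem of_der (h : S0 O f) (h' : S0 O f') (e : ∀ x ∈ O, ∀ θ s, HasDerivAt (f x θ) (f' x θ s) s) :
    S1 O f :=
  ⟨h, fun x hx θ s => (e x hx θ s).differentiableAt, h'.congr fun x hx θ s => (e x hx θ s).deriv⟩

theorem der (h : S1 O f) {x : X} (hx : x ∈ O) (θ : Θ) (s : ℝ) :
    HasDerivAt (f x θ) (deriv (f x θ) s) s := (h.df x hx θ s).hasDerivAt

theorem congr (h : S1 O f) (e : ∀ x ∈ O, ∀ θ s, f' x θ s = f x θ s) : S1 O f' :=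
  of_der (h.s0.congr e) h.d fun x hx θ s => by
    rw [show f' x θ = f x θ from funext (e x hx θ)]; exact h.der hx θ s

theorem par {c : X → N} (hc : ContDiffOn ℝ ∞ c O) : S1 O fun x (_ : Θ) _ => c x :=
  of_der (S0.par hc) (S0.const 0) fun _ _ _ s => hasDerivAt_const s _

theorem const (c : N) : S1 O fun _ (_ : Θ) _ => c := par contDiffOn_const

theorem reparam {X' : Type} [NormedAddCommGroup X'] [NormedSpace ℝ X'] {φ : X' → X} {O' : Set X'}
    (h : S1 O f) (hφ : ContDiffOn ℝ ∞ φ O') (hm : MapsTo φ O' O) : S1 O' fun x => f (φ x) :=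
  ⟨h.s0.reparam hφ hm, fun _ hx => h.df _ (hm hx), h.d.reparam hφ hm⟩

theorem add (h : S1 O f) (h' : S1 O f') : S1 O fun x θ s => f x θ s + f' x θ s :=
  of_der (h.s0.add h'.s0) (h.d.add h'.d) fun _ hx θ s => (h.der hx θ s).add (h'.der hx θ s)

theorem bil (β : N →L[ℝ] N' →L[ℝ] N'') (h : S1 O f) (h' : S1 O g) :
    S1 O fun x θ s => β (f x θ s) (g x θ s) :=
  of_der (h.s0.bil β h'.s0) ((h.d.bil β h'.s0).add (h.s0.bil β h'.d)) fun _ hx θ s =>
    (β.hasFDerivAt.comp_hasDerivAt s (h.der hx θ s)).clm_apply (h'.der hx θ s)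

theorem clm (L : N →L[ℝ] N') (h : S1 O f) : S1 O fun x θ s => L (f x θ s) :=
  of_der (h.s0.clm L) (h.d.clm L) fun _ hx θ s => L.hasFDerivAt.comp_hasDerivAt s (h.der hx θ s)

theorem cmp {φ : N → N'} {U : Set N} (hU : IsOpen U) (hφ : ContDiffOn ℝ ∞ φ U) (h : S1 O f)
    (hm : ∀ x ∈ O, ∀ θ s, f x θ s ∈ U) : S1 O fun x θ s => φ (f x θ s) :=
  of_der (h.s0.cmp hU hφ hm) ((h.s0.cmp hU (hφ.fderiv_of_isOpen hU (m := ∞) (by simp)) hm).bil
    (ContinuousLinearMap.id ℝ (N →L[ℝ] N')) h.d) fun x hx θ s =>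
      ((hφ.contDiffAt (hU.mem_nhds (hm x hx θ s))).differentiableAt
        (by simp)).hasFDerivAt.comp_hasDerivAt s (h.der hx θ s)

theorem neg (h : S1 O f) : S1 O fun x θ s => -f x θ s := h.clm (-ContinuousLinearMap.id ℝ N)

theorem sub (h : S1 O f) (h' : S1 O f') : S1 O fun x θ s => f x θ s - f' x θ s :=
  (h.add h'.neg).congr fun _ _ _ _ => sub_eq_add_neg _ _

theorem smul {c : X → Θ → ℝ → ℝ} (hc : S1 O c) (h : S1 O f) :
    S1 O fun x θ s => c x θ s • f x θ s := bil (ContinuousLinearMap.lsmul ℝ ℝ) hc h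

theorem mul {R : Type} [NormedRing R] [NormedAlgebra ℝ R] {u v : X → Θ → ℝ → R} (hu : S1 O u)
    (hv : S1 O v) : S1 O fun x θ s => u x θ s * v x θ s := bil (ContinuousLinearMap.mul ℝ R) hu hv

theorem csmul (c : ℝ) (h : S1 O f) : S1 O fun x θ s => c • f x θ s := (const c).smul h

theorem fsum {κ : Type*} (t : Finset κ) {u : κ → X → Θ → ℝ → N} (h : ∀ i ∈ t, S1 O (u i)) :
    S1 O fun x θ s => ∑ i ∈ t, u i x θ s := by
  classical
  induction t using Finset.induction_on with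
  | empty => exact (const 0).congr fun _ _ _ _ => Finset.sum_empty
  | insert a t ha ih =>
    exact ((h a (Finset.mem_insert_self a t)).add
      (ih fun i hi => h i (Finset.mem_insert_of_mem hi))).congr fun _ _ _ _ => Finset.sum_insert ha

theorem sum {κ : Type*} [Fintype κ] {u : κ → X → Θ → ℝ → N} (h : ∀ i, S1 O (u i)) :
    S1 O fun x θ s => ∑ i, u i x θ s := fsum _ fun i _ => h i

theorem lsum {κ : Type*} (l : List κ) {u : κ → X → Θ → ℝ → N} (h : ∀ i ∈ l, S1 O (u i)) :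
    S1 O fun x θ s => (l.map fun i => u i x θ s).sum := by
  induction l with
  | nil => exact const 0
  | cons a l ih =>
    exact ((h a List.mem_cons_self).add (ih fun i hi => h i (List.mem_cons_of_mem _ hi))).congr
      fun _ _ _ _ => by simp

end S1

end Crest.Agent.X212.Csm97
end
end

-- ▼ part X212/Csm97/Cut

/-!
# Row 212, CUT-SM (helper97), part 2: the symbol of a cut as a smooth map

`Psi` : the symbol as an explicit smooth function of the values along the paths (`cm_sym`);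
`FF` : families of frames; `sym_cont`, `sym_sm`, `sym_tendsto`.
-/

set_option autoImplicit false
set_option linter.unusedSectionVars false
noncomputable section
open scoped Manifold ContDiff Topology InnerProductSpace
open Set Function Filter

namespace Crest.Agent.X212.Csm97
open An Prm93
open Mon62 (UC Rg Bv Bd)
open Wz78 (SA)

abbrev Ci : Type := UnitAddCircle

section alg
variable {R : Type} [NormedRing R] [NormedAlgebra ℝ R]

def pa1 (A p p' : R) : R := A + ((2 : ℝ) • p - 1) * (p' + (A * p - p * A))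

/-- the corrected connection as a polynomial -/
def pa (A p p' q q' : R) : R :=
  pa1 A p p' - (1 / 2 : ℝ) • (q * (q' + (pa1 A p p' * q - q * pa1 A p p')))

theorem contDiffOn_pa {X : Type} [NormedAddCommGroup X] [NormedSpace ℝ X] {O : Set X}
    {A p p' q q' : X → R} (hA : ContDiffOn ℝ ∞ A O) (hp : ContDiffOn ℝ ∞ p O)
    (hp' : ContDiffOn ℝ ∞ p' O) (hq : ContDiffOn ℝ ∞ q O) (hq' : ContDiffOn ℝ ∞ q' O) :
    ContDiffOn ℝ ∞ (fun x => pa (A x) (p x) (p' x) (q x) (q' x)) O := by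
  have h : ContDiffOn ℝ ∞ (fun x => pa1 (A x) (p x) (p' x)) O :=
    hA.add (((hp.const_smul 2).sub contDiffOn_const).mul (hp'.add ((hA.mul hp).sub (hp.mul hA))))
  exact h.sub ((hq.mul (hq'.add ((h.mul hq).sub (hq.mul h)))).const_smul _)

theorem continuous_pa {X : Type} [TopologicalSpace X] {A p p' q q' : X → R} (hA : Continuous A)
    (hp : Continuous p) (hp' : Continuous p') (hq : Continuous q) (hq' : Continuous q') :
    Continuous fun x => pa (A x) (p x) (p' x) (q x) (q' x) := by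
  unfold pa pa1; fun_prop

variable {J : Type} {X : J → Type} [∀ i, NormedAddCommGroup (X i)] [∀ i, NormedSpace ℝ (X i)]
  {Q : Rg X}

theorem uc_mul {u v : ∀ i, X i → R} (hu : UC Q u) (hv : UC Q v) : UC Q fun i x => u i x * v i x :=
  UC.bil (β := fun _ => ContinuousLinearMap.mul ℝ R) (Bv.const _) hu hv

theorem uc_pa {A p p' q q' : ∀ i, X i → R} (hA : UC Q A) (hp : UC Q p) (hp' : UC Q p')
    (hq : UC Q q) (hq' : UC Q q') :
    UC Q fun i x => pa (A i x) (p i x) (p' i x) (q i x) (q' i x) := by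
  have h : UC Q fun i x => pa1 (A i x) (p i x) (p' i x) :=
    hA.add (uc_mul (((UC.const (Bv.const 2)).smul hp).sub (UC.const (Bv.const 1)))
      (hp'.add ((uc_mul hA hp).sub (uc_mul hp hA))))
  exact h.sub ((UC.const (Bv.const _)).smul (uc_mul hq (hq'.add ((uc_mul h hq).sub (uc_mul hq h)))))

end alg

section Sy
variable {κ : Type} [Fintype κ]

/-- the end point -/
def t1 : II := ⟨1, zero_le_one, le_rfl⟩

/-- constants -/
def cst (N : Type) [NormedAddCommGroup N] [NormedSpace ℝ N] : CL N C(Ci, N) :=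
  ContinuousLinearMap.const ℝ Ci

/-- the symbol as a function of the coefficient and the projector -/
def Sy (pp : En κ) (a : C(II × Ci, En κ)) (p : En κ) : C(Ci, En κ) :=
  cst _ (Eqv71.trnL (evC 0 (Hol t1 a))) * Hol t1 a * cst _ p + cst _ (pp - p)

theorem Sy_apply (pp : En κ) (a : C(II × Ci, En κ)) (p : En κ) (θ : Ci) :
    Sy pp a p θ = trn (Hol t1 a 0) * Hol t1 a θ * p + (pp - p) := rfl

theorem contDiffOn_Sy (pp : En κ) {X : Type} [NormedAddCommGroup X] [NormedSpace ℝ X] {O : Set X}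
    {a : X → C(II × Ci, En κ)} {p : X → En κ} (ha : ContDiffOn ℝ ∞ a O) (hp : ContDiffOn ℝ ∞ p O) :
    ContDiffOn ℝ ∞ (fun x => Sy pp (a x) (p x)) O := by
  have h := (contDiff_Hol t1).comp_contDiffOn ha
  exact ((((cst _).contDiff.comp_contDiffOn (Eqv71.trnL.contDiff.comp_contDiffOn
    ((evC 0).contDiff.comp_contDiffOn h))).mul h).mul ((cst _).contDiff.comp_contDiffOn hp)).add
    ((cst _).contDiff.comp_contDiffOn (contDiffOn_const.sub hp))

theorem uc_Sy (pp : En κ) {J : Type} {X : J → Type} [∀ i, NormedAddCommGroup (X i)]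
    [∀ i, NormedSpace ℝ (X i)] {Q : Rg X} {a : ∀ i, X i → C(II × Ci, En κ)} {p : ∀ i, X i → En κ}
    (ha : UC Q a) (hp : UC Q p) : UC Q fun i x => Sy pp (a i x) (p i x) := by
  have h := uc_Hol t1 ha
  have c : ∀ {u : ∀ i, X i → En κ}, UC Q u → UC Q fun i x => cst _ (u i x) := fun hu =>
    hu.clm (L := fun _ => cst _) (Bv.const _)
  exact (uc_mul (uc_mul (c ((h.clm (L := fun _ => evC 0) (Bv.const _)).clm
    (L := fun _ => Eqv71.trnL) (Bv.const _))) h) (c hp)).add (c ((UC.const (Bv.const pp)).sub hp))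

/-- `T ↦ A T C` -/
def sand {W X Y Z : Type} [NormedAddCommGroup W] [NormedSpace ℝ W] [NormedAddCommGroup X]
    [NormedSpace ℝ X] [NormedAddCommGroup Y] [NormedSpace ℝ Y] [NormedAddCommGroup Z]
    [NormedSpace ℝ Z] (A : CL Y Z) (C : CL W X) : CL (CL X Y) (CL W Z) :=
  ContinuousLinearMap.compL ℝ W Y Z A ∘L (ContinuousLinearMap.compL ℝ W X Y).flip C

variable (J p : En κ)

/-- compression as a linear map -/
def cprL : CL (CL (L2c κ) (L2c κ)) (CL (Hd J p) (Hd J p)) :=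
  sand (Hd J p).orthogonalProjectionOnto (Hd J p).subtypeL

/-- Toeplitz operators as a linear map of the symbol -/
def tpzL : CL C(Ci, En κ) (CL (Hd J p) (Hd J p)) := cprL J p ∘L mulC

theorem tpzL_cm (g : Ci → En κ) : tpzL J p (cm g) = tpz J p g := rfl

/-- finite rank terms as a linear map -/
def frkL (m n : ℕ) : CL (En κ) (CL (Hd J p) (Hd J p)) :=
  cprL J p ∘L sand (md J m) (fc J n)

theorem frkL_apply (m n : ℕ) (Ξ : En κ) : frkL J p m n Ξ = frk J p m n Ξ := rfl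

end Sy

variable {E : Type} [NormedAddCommGroup E] [NormedSpace ℝ E] [FiniteDimensional ℝ E]
  [MeasurableSpace E] [BorelSpace E]
  {HM : Type} [TopologicalSpace HM] {I : ModelWithCorners ℝ E HM} [I.Boundaryless]
  {M : Type} [TopologicalSpace M] [ChartedSpace HM M] [IsManifold I ∞ M]
  [MeasurableSpace M] [BorelSpace M] [SecondCountableTopology M] {ι : Type} [Fintype ι]
  {lam : Type} [Fintype lam] {N : Type} [NormedAddCommGroup N] [NormedSpace ℝ N]
  {X : Type} [NormedAddCommGroup X] [NormedSpace ℝ X] {O : Set X}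
  {k : Cut M lam} {B : Base M ι lam} {m : Md M ι lam}

theorem cont_lift {Z : Type} [TopologicalSpace Z] {f : Ci → ℝ → Z}
    (h : Continuous fun y : ℝ × ℝ => f y.1 y.2) : Continuous (uncurry f) :=
  (QuotientAddGroup.isOpenQuotientMap_mk.prodMap IsOpenQuotientMap.id).continuous_comp_iff.1 h

variable (I k) in
/-- smoothness of the data -/
structure Dat : Prop where
  sm : ContMDiff 𝓘(ℝ, ℝ × ℝ) I ∞ fun y : ℝ × ℝ => k.γ (y.1 : UnitAddCircle) y.2
  h0 : ∀ θ s, s ≤ 0 → k.γ θ s = k.x0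
  h1 : ∀ θ s, 1 ≤ s → k.γ θ s = k.γ 0 1
  sw : ∀ t ∈ k.w, Sm I t.1 ∧ Sm I t.2.1 ∧ Sm I t.2.2
  se : ∀ t ∈ k.e, Sm I t.1 ∧ Sm I t.2.1 ∧ Sm I t.2.2

theorem dat {F : Fr I M ι} (h : k.OK B F) : Dat I k :=
  ⟨h.sm, h.h0, h.h1, fun t ht => ⟨Cb.sm (h.sw t ht).1, (h.sw t ht).2.1.1, (h.sw t ht).2.2.1⟩,
    fun t ht => ⟨Cb.sm (h.se t ht).1, (h.se t ht).2.1.1, (h.se t ht).2.2.1⟩⟩

namespace Dat
variable (h : Dat I k)
include h

theorem cont : Continuous (uncurry k.γ) := cont_lift h.sm.continuous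

theorem path (θ : Ci) : ContMDiff 𝓘(ℝ, ℝ) I ∞ (k.γ θ) := by
  obtain ⟨r, rfl⟩ := QuotientAddGroup.mk_surjective θ
  exact h.sm.comp (contDiff_const.prodMk contDiff_id : ContDiff ℝ ∞ fun s : ℝ => (r, s)).contMDiff

theorem supp_eq : k.supp = range fun z : II × Ci => k.γ z.2 z.1 := by
  refine Subset.antisymm ?_ (by rintro _ ⟨z, rfl⟩; exact ⟨(z.2, z.1), rfl⟩)
  rintro _ ⟨⟨θ, s⟩, rfl⟩
  rcases le_total s 0 with h0 | h0
  · exact ⟨(⟨0, le_rfl, zero_le_one⟩, θ), (h.h0 θ 0 le_rfl).trans (h.h0 θ s h0).symm⟩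
  rcases le_total 1 s with h1 | h1
  · exact ⟨(t1, θ), (h.h1 θ 1 le_rfl).trans (h.h1 θ s h1).symm⟩
  · exact ⟨(⟨s, h0, h1⟩, θ), rfl⟩

theorem isCompact_supp : IsCompact k.supp := h.supp_eq ▸ isCompact_range
  (h.cont.comp (continuous_snd.prodMk (continuous_subtype_val.comp continuous_fst)))

theorem cont_on {Z : Type} [TopologicalSpace Z] {u : M → Z} (hu : ContinuousOn u k.supp) :
    Continuous (uncurry fun θ s => u (k.γ θ s)) :=
  hu.comp_continuous h.cont fun z => ⟨z, rfl⟩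

theorem der_mf {u : M → N} {θ : Ci} {s : ℝ} (hu : MDifferentiableAt I 𝓘(ℝ, N) u (k.γ θ s)) :
    HasDerivAt (fun s => u (k.γ θ s))
      (mfderiv I 𝓘(ℝ, N) u (k.γ θ s) (mfderiv 𝓘(ℝ, ℝ) I (k.γ θ) s (1 : ℝ))) s := by
  let L : ℝ →L[ℝ] N := (mfderiv I 𝓘(ℝ, N) u (k.γ θ s)).comp (mfderiv 𝓘(ℝ, ℝ) I (k.γ θ) s)
  have h1 : HasFDerivAt (fun s => u (k.γ θ s)) L s := (hu.hasMFDerivAt.comp s
    ((h.path θ).mdifferentiableAt (by simp)).hasMFDerivAt).hasFDerivAt
  exact h1.hasDerivAt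

/-- the chain rule along the paths -/
theorem der (F : Fr I M ι) {u : M → N} {θ : Ci} {s : ℝ}
    (hu : MDifferentiableAt I 𝓘(ℝ, N) u (k.γ θ s)) :
    HasDerivAt (fun s => u (k.γ θ s)) (∑ a, k.vel F θ s a • F.D a u (k.γ θ s)) s := by
  refine (h.der_mf hu).congr_deriv ?_
  conv_lhs => rw [← (Num57.cf F (k.γ θ s)).ex (mfderiv 𝓘(ℝ, ℝ) I (k.γ θ) s (1 : ℝ))]
  exact (map_sum (mfderiv I 𝓘(ℝ, N) u (k.γ θ s)) _ _).trans
    (Finset.sum_congr rfl fun a _ => map_smul _ _ _)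

theorem der_cont {u : M → N} {y : ℝ × ℝ} (hu : SA I u (k.γ y.1 y.2)) :
    ContinuousAt (fun y : ℝ × ℝ => deriv (fun s => u (k.γ y.1 s)) y.2) y := by
  have h1 : ContDiffAt ℝ 1 (fun y : ℝ × ℝ => u (k.γ y.1 y.2)) y :=
    (ContMDiffAt.comp y hu (h.sm y)).contDiffAt.of_le (by simp)
  refine ((h1.continuousAt_fderiv one_ne_zero).clm_apply
    (continuousAt_const (y := ((0 : ℝ), (1 : ℝ))))).congr ?_
  filter_upwards [h1.eventually (by simp)] with z hz
  exact ((hz.differentiableAt one_ne_zero).hasFDerivAt.comp_hasDerivAt z.2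
    ((hasDerivAt_const z.2 z.1).prodMk (hasDerivAt_id z.2))).deriv.symm

theorem vel_cont (F : Fr I M ι) (a : ι) : Continuous (uncurry fun θ s => k.vel F θ s a) := by
  refine cont_lift (continuous_iff_continuousAt.2 fun y => ?_)
  obtain ⟨f, hf, he⟩ := Num57.exists_th F (k.γ y.1 y.2)
  have hc := h.sm.continuous.continuousAt (x := y)
  refine ContinuousAt.congr (tendsto_finsetSum Finset.univ fun i _ =>
    (ContinuousAt.comp (f := fun y : ℝ × ℝ => k.γ y.1 y.2) (hf a i).continuousAt hc).mul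
      (h.der_cont (Num57.sm_yc (mem_extChartAt_source _) i))) ?_
  filter_upwards [hc.eventually he, hc.eventually (extChartAt_source_mem_nhds (I := I) _)]
    with z h1 h2
  have h3 : ∀ v : E, Num57.tl F (k.γ z.1 z.2) a v = ∑ i, f a i (k.γ z.1 z.2) *
      Dr59.mf I 𝓘(ℝ, ℝ) (Num57.yc (I := I) (k.γ y.1 y.2) i) (k.γ z.1 z.2) v := fun v => by
    rw [← Num57.e1_io, ← Num57.th, h1 a, Finset.sum_apply, Num57.e1_sum]
    refine Finset.sum_congr rfl fun i _ => ?_
    rw [Pi.smul_apply', Num57.e1_smul]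
    exact congrArg _ (Num57.e1_io _ _)
  refine Eq.trans (Finset.sum_congr rfl fun i _ => ?_) (h3 _).symm
  exact congrArg _ (h.der_mf (Num57.sm_yc h2 i).md).deriv

/-- fixed functions along the paths -/
theorem s1 {u : M → N} (hu : ∀ x ∈ k.supp, SA I u x) : S1 O fun _ θ s => u (k.γ θ s) :=
  ⟨S0.fixed (h.cont_on fun x hx => (hu x hx).continuousAt.continuousWithinAt),
    fun _ _ θ s => (h.der_mf (hu _ ⟨(θ, s), rfl⟩).md).differentiableAt,
    S0.fixed (cont_lift (continuous_iff_continuousAt.2 fun _ => h.der_cont (hu _ ⟨(_, _), rfl⟩)))⟩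

theorem s1' {u : M → N} (hu : Sm I u) : S1 O fun _ θ s => u (k.γ θ s) := h.s1 fun x _ => hu x

/-- restriction of `Cb` functions to the paths -/
def resB (F : Pre I M ι) : CL (Prm93.B F 0 N) C(II × Ci, N) :=
  LinearMap.mkContinuous
    { toFun := fun f => ⟨fun z => Prm93.B.fn f (k.γ z.2 z.1), f.sm.continuous.comp
        (h.cont.comp (continuous_snd.prodMk (continuous_subtype_val.comp continuous_fst)))⟩
      map_add' := fun _ _ => rfl
      map_smul' := fun _ _ => rfl } 1 fun f => by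
      rw [one_mul, ContinuousMap.norm_le _ (norm_nonneg f)]
      exact fun z => Sob92.CB_bound f.CB _

theorem s0_sb {F : Pre I M ι} {f : X → M → N} (hf : SB F O f) : S0 O fun x θ s => f x (k.γ θ s) :=
  S0.of_map (fun x hx => h.cont_on (Cb.sm (hf.cb x hx)).continuous.continuousOn)
    ((h.resB F).contDiff.comp_contDiffOn (hf.sm 0)) fun x hx _ =>
      congrFun (fn_toB (hf.cb x hx)) _

/-- smooth families of `Cb` functions along the paths -/
theorem s1_sb {F : Fr I M ι} {f : X → M → N} (hf : SB F.toPre O f) :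
    S1 O fun x θ s => f x (k.γ θ s) :=
  S1.of_der (h.s0_sb hf) (S0.sum fun a => (S0.fixed (h.vel_cont F a)).smul (h.s0_sb (hf.D a)))
    fun x hx _ _ => h.der F ((Cb.sm (hf.cb x hx)).mdifferentiableAt (by simp))

end Dat

variable (k O) in
/-- families of frames -/
structure FF (F : X → Fr I M ι) : Prop where
  D : ∀ g : M → ℝ, Sm I g → ∀ a, S1 O fun x θ s => (F x).D a g (k.γ θ s)
  vel : ∀ a, S0 O fun x θ s => k.vel (F x) θ s a

theorem FF.fixed (h : Dat I k) (F : Fr I M ι) : FF O k fun _ => F :=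
  ⟨fun _ hg a => h.s1' (F.sm_D hg a), fun a => S0.fixed (h.vel_cont F a)⟩

theorem FF.reparam {F : X → Fr I M ι} (h : FF O k F) {X' : Type} [NormedAddCommGroup X']
    [NormedSpace ℝ X'] {φ : X' → X} {O' : Set X'} (hφ : ContDiffOn ℝ ∞ φ O') (hm : MapsTo φ O' O) :
    FF O' k fun x => F (φ x) :=
  ⟨fun g hg a => (h.D g hg a).reparam hφ hm, fun a => (h.vel a).reparam hφ hm⟩

theorem vel_mix {F F' : Fr I M ι} {S Si : ι → ι → ℝ} {θ : Ci} {s : ℝ}
    (h1 : ∀ a, F'.e a (k.γ θ s) = ∑ b, S a b • F.e b (k.γ θ s))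
    (h2 : ∀ a b, ∑ c, Si a c * S c b = F.P a b (k.γ θ s))
    (h3 : ∀ a b, ∑ c, Si a c * F'.P c b (k.γ θ s) = Si a b) (a : ι) :
    k.vel F' θ s a = ∑ b, k.vel F θ s b * Si b a := by
  have e : ∀ b, Num57.ee F (k.γ θ s) b = ∑ c, Si b c • Num57.ee F' (k.γ θ s) c := fun b => by
    have h4 : ∀ c, Num57.ee F' (k.γ θ s) c = ∑ b, S c b • Num57.ee F (k.γ θ s) b := h1
    simp only [h4, Finset.smul_sum, smul_smul]
    rw [Finset.sum_comm]
    simp only [← Finset.sum_smul, h2]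
    exact (F.P_e b _).symm
  rw [Cut.vel, ← (Num57.cf F (k.γ θ s)).ex (mfderiv 𝓘(ℝ, ℝ) I (k.γ θ) s (1 : ℝ)), map_sum]
  refine Finset.sum_congr rfl fun b _ => ?_
  rw [map_smul, e, Num57.tl_comb, ← h3 b a]
  exact congrArg _ (Finset.sum_congr rfl fun c _ => by rw [mul_comm, F'.P_symm])

theorem FF.mix (h : Dat I k) {F0 : Fr I M ι} {F : X → Fr I M ι} {S Si : X → M → ι → ι → ℝ}
    (h1 : ∀ x ∈ O, Mix F0.toPre (F x).toPre fun a b y => S x y a b)
    (h2 : ∀ x ∈ O, ∀ y a b, ∑ c, Si x y a c * S x y c b = F0.P a b y)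
    (h3 : ∀ x ∈ O, ∀ y a b, ∑ c, Si x y a c * (F x).P c b y = Si x y a b)
    (hS : ∀ a b, S1 O fun x θ s => S x (k.γ θ s) a b)
    (hSi : ∀ a b, S0 O fun x θ s => Si x (k.γ θ s) a b) : FF O k F :=
  ⟨fun g hg a => (S1.sum fun b => (hS a b).smul (h.s1' (F0.sm_D hg b))).congr
      fun x hx _ _ => congrFun ((h1 x hx).D a g) _,
    fun a => (S0.sum fun b => (S0.fixed (h.vel_cont F0 b)).mul (hSi b a)).congr
      fun x hx _ _ => vel_mix (fun a => h1 x hx a _) (h2 x hx _) (h3 x hx _) a⟩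

theorem S1.toLp {α : Type} [Fintype α] {f : α → X → Ci → ℝ → ℝ} (h : ∀ a, S1 O (f a)) :
    S1 O fun x θ s => (WithLp.toLp 2 fun a => f a x θ s : Eu α) := by
  classical
  refine (S1.sum fun a => (h a).smul (S1.const (EuclideanSpace.single a (1 : ℝ)))).congr
    fun x _ θ s => ?_
  ext b
  simp [Pi.single_apply]

theorem sm_sd (hB : B.OK I) (s t : ι × ι) : Sm I fun x => B.sd x s t :=
  ((((hB.sP _ _).mul (hB.sP _ _)).sub ((hB.sP _ _).mul (hB.sP _ _))).div_const 2 |>.add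
    ((hB.so _ _ _ _).div_const 2)).div_const 2

variable {F : X → Fr I M ι} (hB : B.OK I) (hm : m.OK I B) (h : Dat I k) (hF : FF O k F)
include h

section
include hB hF

theorem dd_s1 {g g' : M → ℝ} (hg : Sm I g) (hg' : Sm I g') :
    S1 O fun x θ s => B.dd (F x) g g' (k.γ θ s) :=
  S1.toLp fun u => S1.sum fun t => (h.s1' (sm_sd hB u t)).mul ((hF.D g hg _).mul (hF.D g' hg' _))

theorem om_s1 : S1 O fun x θ s => k.om B (F x) (k.γ θ s) :=
  S1.lsum k.w fun t ht => (h.s1' (h.sw t ht).1).smul (dd_s1 hB h hF (h.sw t ht).2.1 (h.sw t ht).2.2)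

end

include hm

theorem c2_s1 {w : X → Ci → ℝ → Eu (ι × ι)} (hw : S1 O w) :
    S1 O fun x θ s => m.c2 (k.γ θ s) (w x θ s) :=
  S1.sum fun u => (hw.clm (EuclideanSpace.proj u)).smul
    ((h.s1' (hm.sρ u.1)).mul (h.s1' (hm.sρ u.2)))

include hB hF

theorem pi_s1 (ho : ∀ x ∈ O, ∀ θ s, k.om B (F x) (k.γ θ s) ≠ 0) :
    S1 O fun x θ s => k.pi B (F x) m (k.γ θ s) := by
  have h1 : ContDiffOn ℝ ∞ (fun w : Eu (ι × ι) => (2 * ‖w‖)⁻¹) {0}ᶜ := fun w hw =>
    ((contDiffAt_const.mul (contDiffAt_norm ℝ hw)).inv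
      (mul_ne_zero two_ne_zero (norm_ne_zero_iff.2 hw))).contDiffWithinAt
  exact ((h.s1' (Wz78.sm_pp hm hB)).sub (((om_s1 hB h hF).cmp isOpen_compl_singleton h1 ho).smul
    ((S1.const m.J).mul (c2_s1 hm h (om_s1 hB h hF))))).csmul _

theorem q0_s1 (ho : ∀ x ∈ O, ∀ θ s, k.om B (F x) (k.γ θ s) ≠ 0) :
    S1 O fun x θ s => k.q0 B (F x) m (k.γ θ s) :=
  ((pi_s1 hB hm h hF ho).mul (S1.lsum k.e fun t ht =>
    (c2_s1 hm h (dd_s1 hB h hF (h.se t ht).2.1 (h.se t ht).2.2)).mul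
      ((h.s1' hm.sj).bil (ContinuousLinearMap.id ℝ _) (h.s1' (h.se t ht).1)))).mul
    (pi_s1 hB hm h hF ho)

theorem qu_s1 (ho : ∀ x ∈ O, ∀ θ s, k.om B (F x) (k.γ θ s) ≠ 0)
    (hq : ∀ x ∈ O, ∀ θ s, k.q0 B (F x) m (k.γ θ s) ≠ 0) :
    S1 O fun x θ s => k.qu B (F x) m (k.γ θ s) := by
  have h1 : ContDiffOn ℝ ∞ (fun w : m.A => 2 / ‖w‖) {0}ᶜ := fun w hw =>
    (contDiffAt_const.div (contDiffAt_norm ℝ hw) (norm_ne_zero_iff.2 hw)).contDiffWithinAt
  refine (((q0_s1 hB hm h hF ho).clm hsL).cmp isOpen_compl_singleton h1 fun x hx θ s e =>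
    hq x hx θ s ?_).smul (q0_s1 hB hm h hF ho)
  rw [← Wz78.opL_hsL (k.q0 B (F x) m (k.γ θ s)), mem_singleton_iff.1 e, map_zero]

omit hB hm h hF

/-- a connection along the paths -/
abbrev Wp (k : Cut M lam) {m : Md M ι lam} (W : m.Cn) (a : ι) (θ : Ci) (s : ℝ) : En (Fin m.N) :=
  W a (k.γ θ s)

variable (k B m) in
/-- the corrected connection as a function of the values `w` of the connection along the paths -/
def Phi (G : Fr I M ι) (w : ι → C(II × Ci, En (Fin m.N))) : C(II × Ci, En (Fin m.N)) :=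
  pa (∑ a, bilC (ContinuousLinearMap.lsmul ℝ ℝ) (c2 fun θ s => k.vel G θ s a) (w a))
    (c2 fun θ s => k.pi B G m (k.γ θ s)) (c2 fun θ => deriv fun s => k.pi B G m (k.γ θ s))
    (c2 fun θ s => k.qu B G m (k.γ θ s)) (c2 fun θ => deriv fun s => k.qu B G m (k.γ θ s))

variable (k B m) in
/-- the symbol as a function of the values `w` of the connection along the paths -/
def Psi (G : Fr I M ι) (w : ι → C(II × Ci, En (Fin m.N))) : C(Ci, En (Fin m.N)) :=
  Sy (m.pp B k.x0) (Phi k B m G w) (k.pi B G m k.x0)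

theorem A2_eq (G : Fr I M ι) (W : m.Cn) (θ : Ci) (s : ℝ) : k.A2 B G m W θ s =
    pa (∑ a, k.vel G θ s a • W a (k.γ θ s)) (k.pi B G m (k.γ θ s))
      (deriv (fun s => k.pi B G m (k.γ θ s)) s) (k.qu B G m (k.γ θ s))
      (deriv (fun s => k.qu B G m (k.γ θ s)) s) := by
  simp only [Cut.A2, Cut.A1, Cut.A0, cvd, pa, pa1]

include hB hm

section fixed
variable {G : Fr I M ι} (hk : k.OK B G) {W : m.Cn}
include hk

theorem pi_fix : S1 O fun _ θ s => k.pi B G m (k.γ θ s) :=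
  pi_s1 hB hm (dat hk) (FF.fixed (dat hk) G) fun _ _ => hk.om

theorem qu_fix : S1 O fun _ θ s => k.qu B G m (k.γ θ s) :=
  qu_s1 hB hm (dat hk) (FF.fixed (dat hk) G) (fun _ _ => hk.om) fun _ _ => hk.q0 m hm

theorem pi_diff (θ : Ci) : Differentiable ℝ fun s => k.pi B G m (k.γ θ s) :=
  (pi_fix (O := (univ : Set ℝ)) hB hm hk).df 0 trivial θ

theorem qu_diff (θ : Ci) : Differentiable ℝ fun s => k.qu B G m (k.γ θ s) :=
  (qu_fix (O := (univ : Set ℝ)) hB hm hk).df 0 trivial θ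

variable (hW : ∀ a, ContinuousOn (W a) k.supp)
include hW

theorem A2_cont : Continuous (uncurry (k.A2 B G m W)) :=
  have p := pi_fix (O := (univ : Set ℝ)) hB hm hk
  have q := qu_fix (O := (univ : Set ℝ)) hB hm hk
  (continuous_pa (continuous_finsetSum _ fun a _ =>
    ((dat hk).vel_cont G a).smul ((dat hk).cont_on (hW a))) (p.s0.ct 0 trivial) (p.d.ct 0 trivial)
    (q.s0.ct 0 trivial) (q.d.ct 0 trivial)).congr fun z => (A2_eq G W z.1 z.2).symm

/-- the transport in the symbol solves its equation -/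
theorem trp_A2 (θ : Ci) : trp (k.A2 B G m W θ) 0 = 1 ∧ ∀ s, HasDerivAt (trp (k.A2 B G m W θ))
    (-(k.A2 B G m W θ s * trp (k.A2 B G m W θ) s)) s :=
  trp_spec ((A2_cont hB hm hk hW).uncurry_left θ)

theorem c2_A2 : c2 (k.A2 B G m W) = Phi k B m G fun a => c2 (Wp k W a) := by
  have p := pi_fix (O := (univ : Set ℝ)) hB hm hk
  have q := qu_fix (O := (univ : Set ℝ)) hB hm hk
  refine cm_eq fun z => ?_
  rw [A2_eq, ← c2_apply (p.s0.ct 0 trivial) z, ← c2_apply (p.d.ct 0 trivial) z,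
    ← c2_apply (q.s0.ct 0 trivial) z, ← c2_apply (q.d.ct 0 trivial) z]
  have e : (∑ a, bilC (ContinuousLinearMap.lsmul ℝ ℝ) (c2 fun θ s => k.vel G θ s a)
      (c2 (Wp k W a))) z = ∑ a, k.vel G z.2 z.1 a • W a (k.γ z.2 z.1) := by
    rw [ContinuousMap.sum_apply]
    refine Finset.sum_congr rfl fun a _ => ?_
    rw [bilC_apply, c2_apply ((dat hk).vel_cont G a), c2_apply ((dat hk).cont_on (hW a))]; rfl
  rw [← e]; rfl

theorem Psi_apply (θ : Ci) : Psi k B m G (fun a => c2 (Wp k W a)) θ = k.sym B G m W θ := by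
  rw [Psi, Sy_apply, ← c2_A2 hB hm hk hW, Hol_trp (A2_cont hB hm hk hW),
    Hol_trp (A2_cont hB hm hk hW)]
  rfl

theorem cm_sym : cm (k.sym B G m W) = Psi k B m G fun a => c2 (Wp k W a) :=
  cm_eq (Psi_apply hB hm hk hW)

/-- **The symbol is continuous.** -/
theorem sym_cont : Continuous (k.sym B G m W) :=
  funext (Psi_apply hB hm hk hW) ▸ (Psi k B m G fun a => c2 (Wp k W a)).continuous

theorem T_eq : k.T B G m W = tpzL m.J (m.pp B k.x0) (Psi k B m G fun a => c2 (Wp k W a)) := by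
  rw [← cm_sym hB hm hk hW]; rfl

omit hW

/-- uniform version for a fixed frame -/
theorem uc_Psi {J : Type} {X : J → Type} [∀ i, NormedAddCommGroup (X i)]
    [∀ i, NormedSpace ℝ (X i)] {Q : Rg X} {w : ι → ∀ i, X i → C(II × Ci, En (Fin m.N))}
    (hw : ∀ a, UC Q (w a)) : UC Q fun i x => Psi k B m G fun a => w a i x :=
  uc_Sy _ (uc_pa (UC.sum fun a => (hw a).clm (L := fun _ => bilC _ _) (Bv.const _))
    (UC.const (Bv.const _)) (UC.const (Bv.const _)) (UC.const (Bv.const _))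
    (UC.const (Bv.const _))) (UC.const (Bv.const _))

end fixed

variable (hk : ∀ x ∈ O, k.OK B (F x))
include hF hk

theorem pi_x0 : ContDiffOn ℝ ∞ (fun x => k.pi B (F x) m k.x0) O := fun x hx =>
  (pi_s1 hB hm (dat (hk x hx)) hF fun x hx => (hk x hx).om).s0.ev 0 ⟨le_rfl, zero_le_one⟩ x hx

theorem contDiffOn_Psi {w : X → ι → C(II × Ci, En (Fin m.N))}
    (hw : ∀ a, ContDiffOn ℝ ∞ (fun x => w x a) O) :
    ContDiffOn ℝ ∞ (fun x => Psi k B m (F x) (w x)) O := fun x hx => by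
  have h := dat (hk x hx)
  have p := pi_s1 hB hm h hF fun x hx => (hk x hx).om
  have q := qu_s1 hB hm h hF (fun x hx => (hk x hx).om) fun x hx => (hk x hx).q0 m hm
  exact contDiffOn_Sy _ (contDiffOn_pa (ContDiffOn.sum fun a _ =>
    ((bilC _).contDiff.comp_contDiffOn (hF.vel a).sm).clm_apply (hw a)) p.s0.sm p.d.sm q.s0.sm
    q.d.sm) (pi_x0 hB hm hF hk) x hx

/-- **The symbol depends smoothly on the frame and on the connection in `C⁰`.** -/
theorem sym_sm {W : X → m.Cn} (hc : ∀ x ∈ O, ∀ a, ContinuousOn (W x a) k.supp)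
    (hW : ∀ a, S0 O fun x => Wp k (W x) a) :
    ContDiffOn ℝ ∞ (fun x => cm (k.sym B (F x) m (W x))) O :=
  (contDiffOn_Psi hB hm hF hk fun a => (hW a).sm).congr fun x hx =>
    cm_sym hB hm (hk x hx) (hc x hx)

theorem T_sm {W : X → m.Cn} (hc : ∀ x ∈ O, ∀ a, ContinuousOn (W x a) k.supp)
    (hW : ∀ a, S0 O fun x => Wp k (W x) a) : ContDiffOn ℝ ∞ (fun x => k.T B (F x) m (W x)) O :=
  (tpzL m.J (m.pp B k.x0)).contDiff.comp_contDiffOn (sym_sm hB hm hF hk hc hW)

/-- **Uniform convergence of the connections along the paths gives uniform convergence of the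
symbols.** -/
theorem sym_tendsto {α : Type*} {l : Filter α} {x : α → X} {x₀ : X} (h0 : x₀ ∈ O)
    (hx : Tendsto x l (𝓝[O] x₀)) {W : α → m.Cn} {W₀ : m.Cn}
    (hc : ∀ᶠ n in l, ∀ a, ContinuousOn (W n a) k.supp) (hc₀ : ∀ a, ContinuousOn (W₀ a) k.supp)
    (hW : ∀ a, TendstoUniformlyOn (fun n => W n a) (W₀ a) l k.supp) :
    Tendsto (fun n => cm (k.sym B (F (x n)) m (W n))) l (𝓝 (cm (k.sym B (F x₀) m W₀))) := by
  have h := dat (hk x₀ h0)
  have h1 := (contDiffOn_Psi (X := X × (ι → C(II × Ci, En (Fin m.N)))) (O := O ×ˢ univ) hB hm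
    (hF.reparam contDiffOn_fst fun _ hz => hz.1) (fun z hz => hk z.1 hz.1) (w := fun z => z.2)
    fun a => (contDiff_apply ℝ _ a).comp_contDiffOn contDiffOn_snd).continuousOn
    (x₀, fun a => c2 (Wp k W₀ a)) ⟨h0, trivial⟩
  have h2 : Tendsto (fun n => fun a => c2 (Wp k (W n) a)) l (𝓝 fun a => c2 (Wp k W₀ a)) := by
    refine tendsto_pi_nhds.2 fun a => Metric.tendsto_nhds.2 fun ε hε => ?_
    filter_upwards [hc, Metric.tendstoUniformlyOn_iff.1 (hW a) ε hε] with n h3 h4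
    rw [ContinuousMap.dist_lt_iff hε]
    intro z
    rw [c2_apply (h.cont_on (h3 a)), c2_apply (h.cont_on (hc₀ a)), dist_comm]
    exact h4 _ ⟨(_, _), rfl⟩
  have h3 := (tendsto_nhdsWithin_iff.1 hx)
  rw [cm_sym hB hm (hk x₀ h0) hc₀]
  refine (h1.tendsto.comp (tendsto_nhdsWithin_iff.2 ⟨h3.1.prodMk_nhds h2,
    h3.2.mono fun n hn => ⟨hn, trivial⟩⟩)).congr' ?_
  filter_upwards [hc, h3.2] with n h4 h5
  exact (cm_sym hB hm (hk _ h5) h4).symm

theorem T_tendsto {α : Type*} {l : Filter α} {x : α → X} {x₀ : X} (h0 : x₀ ∈ O)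
    (hx : Tendsto x l (𝓝[O] x₀)) {W : α → m.Cn} {W₀ : m.Cn}
    (hc : ∀ᶠ n in l, ∀ a, ContinuousOn (W n a) k.supp) (hc₀ : ∀ a, ContinuousOn (W₀ a) k.supp)
    (hW : ∀ a, TendstoUniformlyOn (fun n => W n a) (W₀ a) l k.supp) :
    Tendsto (fun n => k.T B (F (x n)) m (W n)) l (𝓝 (k.T B (F x₀) m W₀)) :=
  ((tpzL m.J (m.pp B k.x0)).continuous.tendsto _).comp (sym_tendsto hB hm hF hk h0 hx hc hc₀ hW)

end Crest.Agent.X212.Csm97
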